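import Vale.Agent.P203.Top.AE
import Mathlib.Topology.Homotopy.Lifting
import Mathlib.Topology.Order.UpperLowerSetTopology

/-!
# Covering spaces from coverings of posets

`Y` a space with a stratification `p : Y → Q` by a partially ordered set such that
`{y | p y ≤ q}` is open for all `q`; `π : P → Q` a covering of posets.  The total space
`Tot p π = {(y, a) | p y = π a}` (with the lower set topology on `P`) covers `Y`.
-/

namespace Vale.Agent.P203.Top

set_option linter.unusedSectionVars false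

open Set Topology

/-- A covering of partially ordered sets: unique lifting of comparabilities, both ways. -/
structure PosetCover {P Q : Type*} [PartialOrder P] [PartialOrder Q] (π : P → Q) : Prop where
  mono : Monotone π
  down : ∀ a : P, ∀ q ≤ π a, ∃! b, b ≤ a ∧ π b = q
  up : ∀ a : P, ∀ q ≥ π a, ∃! b, a ≤ b ∧ π b = q

/-- The total space. -/
def Tot {Y P Q : Type*} (p : Y → Q) (π : P → Q) : Type _ := {z : Y × P // p z.1 = π z.2}

variable {Y P Q : Type*} [TopologicalSpace Y] [PartialOrder P] [PartialOrder Q]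
  {p : Y → Q} {π : P → Q}

/-- Projection to the base. -/
def Tot.pr (z : Tot p π) : Y := z.1.1

/-- Projection to the poset. -/
def Tot.idx (z : Tot p π) : P := z.1.2

theorem Tot.h (z : Tot p π) : p z.pr = π z.idx := z.2

theorem Tot.ext {z w : Tot p π} (h1 : z.pr = w.pr) (h2 : z.idx = w.idx) : z = w :=
  Subtype.ext (Prod.ext h1 h2)

instance : TopologicalSpace (Tot p π) :=
  TopologicalSpace.induced Tot.pr inferInstance ⊓
    TopologicalSpace.induced Tot.idx (Topology.lowerSet P)

theorem Tot.continuous_pr : Continuous (Tot.pr : Tot p π → Y) :=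
  continuous_iff_le_induced.2 inf_le_left

/-- The open set over a down-set. -/
def V (p : Y → Q) (π : P → Q) (D : Set P) : Set (Tot p π) := {z | z.idx ∈ D}

theorem V_union (D D' : Set P) : V p π (D ∪ D') = V p π D ∪ V p π D' := rfl

theorem V_inter (D D' : Set P) : V p π (D ∩ D') = V p π D ∩ V p π D' := rfl

theorem V_univ : V p π univ = univ := rfl

theorem V_iUnion {ι : Type*} (D : ι → Set P) : V p π (⋃ i, D i) = ⋃ i, V p π (D i) := by
  ext z; simp [V]

theorem V_mono {D D' : Set P} (h : D ⊆ D') : V p π D ⊆ V p π D' := fun _ hz => h hz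

theorem V_isOpen {D : Set P} (hD : IsLowerSet D) : IsOpen (V p π D) := by
  have h : Continuous[_, Topology.lowerSet P] (Tot.idx : Tot p π → P) :=
    continuous_iff_le_induced.2 inf_le_right
  exact @IsOpen.preimage _ _ _ (Topology.lowerSet P) _ h D hD

theorem nhds_tot (z : Tot p π) : 𝓝 z = Filter.comap Tot.pr (𝓝 z.pr) ⊓
    Filter.comap Tot.idx (@nhds P (Topology.lowerSet P) z.idx) := by
  have h := @nhds_inf (Tot p π) (TopologicalSpace.induced Tot.pr inferInstance)
    (TopologicalSpace.induced Tot.idx (Topology.lowerSet P)) z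
  rw [@nhds_induced, @nhds_induced] at h
  exact h

/-- A criterion for continuity into the total space. -/
theorem continuousOn_tot {Z : Type*} [TopologicalSpace Z] {s : Z → Tot p π} {U : Set Z}
    (h1 : ContinuousOn (fun z => (s z).pr) U)
    (h2 : ∀ z ∈ U, ∀ᶠ z' in 𝓝[U] z, (s z').idx ≤ (s z).idx) : ContinuousOn s U := by
  intro z hz
  change Filter.Tendsto s (𝓝[U] z) (𝓝 (s z))
  rw [nhds_tot, Filter.tendsto_inf, Filter.tendsto_comap_iff, Filter.tendsto_comap_iff]
  refine ⟨h1 z hz, ?_⟩
  rw [Filter.tendsto_def]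
  intro O hO
  obtain ⟨O', hO'O, hO', hzO'⟩ := (@mem_nhds_iff P (Topology.lowerSet P) _ _).1 hO
  filter_upwards [h2 z hz] with z' hz'
  exact hO'O ((show IsLowerSet O' from hO') hz' hzO')

section

variable (hπ : PosetCover π) (hp : ∀ q, IsOpen {y | p y ≤ q})
include hπ hp

open Classical in
/-- Over a principal down-set the total space is a copy of the open set of the base. -/
theorem AE_V_Iic (a : P) (h : AE {y | p y ≤ π a}) : AE (V p π (Iic a)) := by
  have hex : ∀ y, p y ≤ π a → ∃ z : Tot p π, z.pr = y ∧ z.idx ≤ a := by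
    intro y hy
    obtain ⟨b, ⟨hb1, hb2⟩, -⟩ := hπ.down a (p y) hy
    exact ⟨⟨(y, b), hb2.symm⟩, rfl, hb1⟩
  obtain ⟨y0, hy0⟩ := h.1
  obtain ⟨z0, -⟩ := hex y0 hy0
  let s : Y → Tot p π := fun y => if hy : p y ≤ π a then (hex y hy).choose else z0
  have hs : ∀ y, p y ≤ π a → (s y).pr = y ∧ (s y).idx ≤ a := by
    intro y hy
    simp only [s, hy, dif_pos]
    exact (hex y hy).choose_spec
  refine h.of_retract s Tot.pr ?_ Tot.continuous_pr.continuousOn (fun y hy => (hs y hy).2) ?_ ?_
  · refine continuousOn_tot ?_ ?_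
    · exact continuousOn_id.congr (fun y hy => (hs y hy).1)
    · intro y hy
      have : {y' | p y' ≤ p y} ∈ 𝓝[{y | p y ≤ π a}] y :=
        mem_nhdsWithin_of_mem_nhds ((hp (p y)).mem_nhds le_rfl)
      filter_upwards [this, self_mem_nhdsWithin] with y' hy' hy'2
      have e1 : π (s y).idx = p y := by rw [← (s y).h, (hs y hy).1]
      have e2 : π (s y').idx = p y' := by rw [← (s y').h, (hs y' hy'2).1]
      obtain ⟨b, ⟨hb1, hb2⟩, -⟩ := hπ.down (s y).idx (p y') (by rw [e1]; exact hy')
      have := (hπ.down a (p y') hy'2).unique ⟨(hs y' hy'2).2, e2⟩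
        ⟨hb1.trans (hs y hy).2, hb2⟩
      rw [this]; exact hb1
  · intro z hz
    change p z.pr ≤ π a
    rw [z.h]; exact hπ.mono hz
  · intro z hz
    have hz' : p z.pr ≤ π a := by rw [z.h]; exact hπ.mono hz
    have h1 := hs z.pr hz'
    refine Tot.ext h1.1 ?_
    refine (hπ.down a (p z.pr) hz').unique ⟨h1.2, ?_⟩ ⟨hz, z.h.symm⟩
    rw [← (s z.pr).h, h1.1]

/-- The projection is a covering map. -/
theorem isCoveringMap_pr : IsCoveringMap (Tot.pr : Tot p π → Y) := by
  intro y0
  let _ : TopologicalSpace {b : P // π b = p y0} := ⊥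
  have : DiscreteTopology {b : P // π b = p y0} := ⟨rfl⟩
  suffices h : IsEvenlyCovered (Tot.pr : Tot p π → Y) y0 {b : P // π b = p y0} from
    h.to_isEvenlyCovered_preimage
  refine ⟨inferInstance, {y | p y ≤ p y0}, le_rfl, hp _, (hp _).preimage Tot.continuous_pr, ?_⟩
  have hup : ∀ z : Tot p π, p z.pr ≤ p y0 → ∃ b : {b : P // π b = p y0}, z.idx ≤ b.1 := by
    intro z hz
    obtain ⟨b, ⟨hb1, hb2⟩, -⟩ := hπ.up z.idx (p y0) (by rw [← z.h]; exact hz)
    exact ⟨⟨b, hb2⟩, hb1⟩
  have hupu : ∀ z : Tot p π, p z.pr ≤ p y0 → ∀ b b' : {b : P // π b = p y0}, z.idx ≤ b.1 →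
      z.idx ≤ b'.1 → b = b' := by
    intro z hz b b' h h'
    exact Subtype.ext ((hπ.up z.idx (p y0) (by rw [← z.h]; exact hz)).unique ⟨h, b.2⟩ ⟨h', b'.2⟩)
  have hdn : ∀ (b : {b : P // π b = p y0}) (y : Y), p y ≤ p y0 →
      ∃ z : Tot p π, z.pr = y ∧ z.idx ≤ b.1 := by
    intro b y hy
    obtain ⟨c, ⟨hc1, hc2⟩, -⟩ := hπ.down b.1 (p y) (by rw [b.2]; exact hy)
    exact ⟨⟨(y, c), hc2.symm⟩, rfl, hc1⟩
  have hdnu : ∀ (b : {b : P // π b = p y0}) (z z' : Tot p π), p z.pr ≤ p y0 → z.pr = z'.pr →
      z.idx ≤ b.1 → z'.idx ≤ b.1 → z = z' := by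
    intro b z z' hz he h h'
    refine Tot.ext he ?_
    exact (hπ.down b.1 (p z.pr) (by rw [b.2]; exact hz)).unique ⟨h, z.h.symm⟩
      ⟨h', by rw [← z'.h, he]⟩
  choose u hu using hup
  choose d hd1 hd2 using hdn
  refine ⟨{ toFun := fun z => (⟨z.1.pr, z.2⟩, u z.1 z.2)
            invFun := fun w => ⟨d w.2 w.1.1 w.1.2, by
              change p (d w.2 w.1.1 w.1.2).pr ≤ p y0
              rw [hd1]; exact w.1.2⟩
            left_inv := ?_, right_inv := ?_, continuous_toFun := ?_, continuous_invFun := ?_ },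
          fun z => rfl⟩
  · intro z
    apply Subtype.ext
    exact hdnu (u z.1 z.2) _ _ (by rw [hd1]; exact z.2) (hd1 _ _ _) (hd2 _ _ _) (hu _ _)
  · intro w
    refine Prod.ext (Subtype.ext (hd1 _ _ _)) ?_
    exact hupu (d w.2 w.1.1 w.1.2) (by rw [hd1]; exact w.1.2) _ _ (hu _ _) (hd2 _ _ _)
  · refine Continuous.prodMk ?_ ?_
    · exact (Tot.continuous_pr.comp continuous_subtype_val).subtype_mk _
    · rw [continuous_discrete_rng]
      intro b
      have : (fun z : (Tot.pr ⁻¹' {y | p y ≤ p y0} : Set (Tot p π)) => u z.1 z.2) ⁻¹' {b} =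
          Subtype.val ⁻¹' (V p π (Iic b.1)) := by
        ext z
        constructor
        · intro hz
          have : u z.1 z.2 = b := hz
          change z.1.idx ≤ b.1
          rw [← this]; exact hu _ _
        · intro hz
          exact hupu z.1 z.2 _ _ (hu _ _) hz
      rw [this]
      exact (V_isOpen (isLowerSet_Iic _)).preimage continuous_subtype_val
  · rw [continuous_prod_of_discrete_right]
    intro b
    refine Continuous.subtype_mk ?_ _
    rw [← continuousOn_univ]
    refine continuousOn_tot ?_ ?_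
    · refine (continuous_subtype_val.congr ?_).continuousOn
      intro y; exact (hd1 b y.1 y.2).symm
    · intro y _
      have : {y' : {y | p y ≤ p y0} | p y'.1 ≤ p y.1} ∈ 𝓝[univ] y :=
        mem_nhdsWithin_of_mem_nhds (((hp (p y.1)).preimage continuous_subtype_val).mem_nhds le_rfl)
      filter_upwards [this] with y' hy'
      have e1 : π (d b y.1 y.2).idx = p y.1 := by rw [← (d b y.1 y.2).h, hd1]
      obtain ⟨c, ⟨hc1, hc2⟩, -⟩ := hπ.down (d b y.1 y.2).idx (p y'.1) (by rw [e1]; exact hy')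
      have hz : d b y'.1 y'.2 = (⟨(y'.1, c), hc2.symm⟩ : Tot p π) := by
        refine hdnu b _ _ (by rw [hd1]; exact y'.2) (hd1 _ _ _) (hd2 _ _ _) ?_
        exact hc1.trans (hd2 _ _ _)
      change (d b y'.1 y'.2).idx ≤ (d b y.1 y.2).idx
      rw [hz]; exact hc1

end

/-- The boundary of the cube of dimension at least two is path connected. -/
theorem isPathConnected_boundary (n : ℕ) (hn : 2 ≤ n) :
    IsPathConnected (Cube.boundary (Fin n)) := by
  classical
  have h0n : 0 < n := by omega
  refine ⟨fun _ => 0, ⟨⟨0, h0n⟩, Or.inl rfl⟩, fun {y} hy => ?_⟩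
  obtain ⟨i, hi⟩ := hy
  have hij : ∃ j : Fin n, j ≠ i := by
    by_cases h : i = ⟨0, h0n⟩
    · exact ⟨⟨1, by omega⟩, by rw [h]; intro h'; simpa using congrArg Fin.val h'⟩
    · exact ⟨⟨0, h0n⟩, fun h' => h h'.symm⟩
  obtain ⟨j, hj⟩ := hij
  have h1 : JoinedIn (Cube.boundary (Fin n)) (fun _ => 0) (fun k => if k = i then y i else 0) := by
    refine ⟨⟨⟨fun t k => if k = i then t * y i else 0, ?_⟩, ?_, ?_⟩, ?_⟩
    · refine continuous_pi fun k => ?_
      by_cases h : k = i
      · simp only [h, if_true]; exact continuous_id.mul continuous_const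
      · simp only [h, if_false]; exact continuous_const
    · funext k; simp
    · funext k; simp
    · intro t; exact ⟨j, Or.inl (by simp [hj])⟩
  have h2 : JoinedIn (Cube.boundary (Fin n)) (fun k => if k = i then y i else 0) y := by
    refine ⟨⟨⟨fun t k => if k = i then y i else t * y k, ?_⟩, ?_, ?_⟩, ?_⟩
    · refine continuous_pi fun k => ?_
      by_cases h : k = i
      · simp only [h, if_true]; exact continuous_const
      · simp only [h, if_false]; exact continuous_id.mul continuous_const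
    · funext k; simp
    · funext k
      by_cases h : k = i
      · simp [h]
      · simp [h]
    · intro t; exact ⟨i, by simpa using hi⟩
  exact h1.trans h2

/-- Lifting cubes through a covering map. -/
theorem exists_lift_genLoop {E X : Type*} [TopologicalSpace E] [TopologicalSpace X] {q : E → X}
    (cov : IsCoveringMap q) {n : ℕ} (hn : 2 ≤ n) {x0 : X} (e0 : E) (he : q e0 = x0)
    (f : GenLoop (Fin n) X x0) : ∃ F : GenLoop (Fin n) E e0, ∀ y, q (F y) = f y := by
  have h0n : 0 < n := by omega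
  let H : C(unitInterval × (Fin n → unitInterval), X) :=
    ⟨fun z => f (fun k => z.1 * z.2 k), by
      refine (ContinuousMap.continuous f.1).comp ?_
      exact continuous_pi fun k => continuous_fst.mul ((continuous_apply k).comp continuous_snd)⟩
  have hb0 : (fun _ => 0 : Fin n → unitInterval) ∈ Cube.boundary (Fin n) :=
    ⟨⟨0, h0n⟩, Or.inl rfl⟩
  have hH0 : ∀ y, H (0, y) = q ((ContinuousMap.const _ e0 : C(Fin n → unitInterval, E)) y) := by
    intro y
    change f (fun k => 0 * y k) = q e0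
    rw [he]
    simp only [zero_mul]
    exact f.2 _ hb0
  let G := cov.liftHomotopy H (ContinuousMap.const _ e0) hH0
  have hG : ∀ z, q (G z) = H z := fun z => congrFun (cov.liftHomotopy_lifts H _ hH0) z
  have hG0 : ∀ y, G (0, y) = e0 := fun y => cov.liftHomotopy_zero H _ hH0 y
  let F : C(Fin n → unitInterval, E) := ⟨fun y => G (1, y), by fun_prop⟩
  have hF : ∀ y, q (F y) = f y := by
    intro y
    change q (G (1, y)) = f y
    rw [hG]
    change f (fun k => 1 * y k) = f y
    simp
  have hF0 : F (fun _ => 0) = e0 := by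
    have hc : Continuous (fun t : unitInterval => G (t, fun _ => 0)) := by fun_prop
    have := cov.constOn_of_comp (s := (univ : Set unitInterval))
      (g := fun t => G (t, fun _ => 0)) isPreconnected_univ hc.continuousOn
      (fun a _ a' _ => by
        simp only [hG]
        change f (fun k => a * 0) = f (fun k => a' * 0)
        simp) (mem_univ 1) (mem_univ 0)
    change G (1, fun _ => 0) = e0
    rw [this, hG0]
  have hFb : ∀ y ∈ Cube.boundary (Fin n), F y = e0 := by
    intro y hy
    rw [← hF0]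
    exact cov.constOn_of_comp (isPathConnected_boundary n hn).isConnected.isPreconnected
      F.continuous.continuousOn
      (fun a ha a' ha' => (hF a).trans (((f.2 a ha).trans (f.2 a' ha').symm).trans
        (hF a').symm)) hy hb0
  exact ⟨⟨F, hFb⟩, hF⟩

/-- Vanishing of a higher homotopy group descends along covering maps. -/
theorem subsingleton_homotopyGroup_of_covering {E X : Type*} [TopologicalSpace E]
    [TopologicalSpace X] {q : E → X} (cov : IsCoveringMap q) {n : ℕ} (hn : 2 ≤ n) {x0 : X} (e0 : E)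
    (he : q e0 = x0) (h : Subsingleton (HomotopyGroup (Fin n) E e0)) :
    Subsingleton (HomotopyGroup (Fin n) X x0) := by
  refine ⟨fun a b => ?_⟩
  induction a using Quotient.inductionOn with
  | _ f =>
  induction b using Quotient.inductionOn with
  | _ g =>
  obtain ⟨F, hF⟩ := exists_lift_genLoop cov hn e0 he f
  obtain ⟨G, hG⟩ := exists_lift_genLoop cov hn e0 he g
  have hFG : GenLoop.Homotopic F G :=
    Quotient.exact (h.elim ⟦F⟧ ⟦G⟧)
  obtain ⟨K⟩ := hFG
  apply Quotient.sound
  change GenLoop.Homotopic f g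
  have K' := K.compContinuousMap (⟨q, cov.continuous⟩ : C(E, X))
  have e1 : (⟨q, cov.continuous⟩ : C(E, X)).comp F.1 = f.1 := by
    ext y; exact hF y
  have e2 : (⟨q, cov.continuous⟩ : C(E, X)).comp G.1 = g.1 := by
    ext y; exact hG y
  rw [e1, e2] at K'
  exact ⟨K'⟩

/-- Conversely, a covering space of a space with vanishing higher homotopy groups. -/
theorem subsingleton_homotopyGroup_of_isCoveringMap_up {E X : Type*} [TopologicalSpace E]
    [TopologicalSpace X] {q : E → X} (cov : IsCoveringMap q) {n : ℕ} (hn : 1 ≤ n) (e0 : E)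
    (h : Subsingleton (HomotopyGroup (Fin n) X (q e0))) :
    Subsingleton (HomotopyGroup (Fin n) E e0) := by
  refine ⟨fun a b => ?_⟩
  induction a using Quotient.inductionOn with
  | _ f =>
  induction b using Quotient.inductionOn with
  | _ g =>
  have h0n : 0 < n := by omega
  have hb0 : (fun _ => 0 : Fin n → unitInterval) ∈ Cube.boundary (Fin n) :=
    ⟨⟨0, h0n⟩, Or.inl rfl⟩
  let f' : GenLoop (Fin n) X (q e0) := ⟨(⟨q, cov.continuous⟩ : C(E, X)).comp f.1,
    fun y hy => congrArg q (f.2 y hy)⟩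
  let g' : GenLoop (Fin n) X (q e0) := ⟨(⟨q, cov.continuous⟩ : C(E, X)).comp g.1,
    fun y hy => congrArg q (g.2 y hy)⟩
  have hfg : GenLoop.Homotopic f' g' :=
    Quotient.exact (h.elim ⟦f'⟧ ⟦g'⟧)
  apply Quotient.sound
  change GenLoop.Homotopic f g
  have hpc : PreconnectedSpace (Fin n → unitInterval) := inferInstance
  exact (cov.homotopicRel_iff_comp (f₀ := f.1) (f₁ := g.1) (S := Cube.boundary (Fin n))
    ⟨fun _ => 0, hb0, (f.2 _ hb0).trans (g.2 _ hb0).symm⟩).2 hfg

/-- **Main abstract result.**  If the total space over the poset covering is an absolute extensor,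
then all higher homotopy groups of the base vanish. -/
theorem subsingleton_homotopyGroup_of_posetCover (hπ : PosetCover π)
    (hp : ∀ q, IsOpen {y | p y ≤ q}) (hs : ∀ y, ∃ a, π a = p y)
    (hAE : AE (univ : Set (Tot p π))) {n : ℕ} (hn : 2 ≤ n) (y0 : Y) :
    Subsingleton (HomotopyGroup (Fin n) Y y0) := by
  obtain ⟨a, ha⟩ := hs y0
  exact subsingleton_homotopyGroup_of_covering (isCoveringMap_pr hπ hp) hn
    (⟨(y0, a), ha.symm⟩ : Tot p π) rfl (hAE.subsingleton_homotopyGroup n _)

/-- Abstract good theories on the lower sets of a partially ordered set: `Good D` is to be thought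
of as `D` being contractible, `Rel A B` as `A → B` being an equivalence. -/
structure GoodTheory {P : Type*} [PartialOrder P] (Good : Set P → Prop)
    (Rel : Set P → Set P → Prop) : Prop where
  principal : ∀ a, Good (Iic a)
  union : ∀ A B, IsLowerSet A → IsLowerSet B → Good A → Good B → Good (A ∩ B) → Good (A ∪ B)
  iUnion : ∀ {ι : Type} [Nonempty ι] (A : ι → Set P), (∀ i, IsLowerSet (A i)) →
    Directed (· ⊆ ·) A → (∀ i, Good (A i)) → Good (⋃ i, A i)
  nonempty : ∀ A, Good A → A.Nonempty
  connected : ∀ A B, IsLowerSet A → IsLowerSet B → A.Nonempty → B.Nonempty → Disjoint A B →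
    ¬ Good (A ∪ B)
  rel_refl : ∀ A, Rel A A
  rel_trans : ∀ A B D, A ⊆ B → B ⊆ D → Rel A B → Rel B D → Rel A D
  rel_union : ∀ A B, IsLowerSet A → IsLowerSet B → Good (A ∩ B) → Rel A (A ∪ B)
  rel_iUnion : ∀ {ι : Type} [Nonempty ι] (A : Set P) (B : ι → Set P), (∀ i, IsLowerSet (B i)) →
    Directed (· ⊆ ·) B → (∀ i, Rel A (B i)) → Rel A (⋃ i, B i)
  rel_good : ∀ A B, A.Nonempty → A ⊆ B → Rel A B → Good B → Good A
  rel_disjoint : ∀ A B, IsLowerSet A → IsLowerSet B → A.Nonempty → Disjoint A B → Rel A (A ∪ B)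

/-- The lower sets whose open set in the total space is an absolute extensor form a good
theory. -/
theorem goodTheory_AE (hπ : PosetCover π) (hp : ∀ q, IsOpen {y | p y ≤ q})
    (hU : ∀ a : P, AE {y | p y ≤ π a}) (hsurj : ∀ q : Q, ∃ y, p y = q) :
    GoodTheory (fun D : Set P => AE (V p π D)) (fun A B : Set P => RelAE (V p π A) (V p π B)) where
  principal a := AE_V_Iic hπ hp a (hU a)
  union A B hA hB h1 h2 h3 := by
    rw [V_union]
    exact h1.union (V_isOpen hA) (V_isOpen hB) h2 (by rw [← V_inter]; exact h3)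
  iUnion A hA hm h := by
    rw [V_iUnion]
    refine AE.iUnion (fun n => V_isOpen (hA n)) ?_ h
    intro i j
    obtain ⟨k, hk1, hk2⟩ := hm i j
    exact ⟨k, V_mono hk1, V_mono hk2⟩
  nonempty A h := by
    obtain ⟨z, hz⟩ := h.1
    exact ⟨z.idx, hz⟩
  connected A B hA hB hAn hBn hd h := by
    rw [V_union] at h
    have hpc := h.isPathConnected.isConnected.isPreconnected
    have hne : ∀ D : Set P, D.Nonempty → (V p π D).Nonempty := by
      rintro D ⟨a, ha⟩
      obtain ⟨y, hy⟩ := hsurj (π a)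
      exact ⟨⟨(y, a), hy⟩, ha⟩
    obtain ⟨a, ha⟩ := hne A hAn
    obtain ⟨b, hb⟩ := hne B hBn
    obtain ⟨c, -, hc1, hc2⟩ := hpc _ _ (V_isOpen hA) (V_isOpen hB) le_rfl
      ⟨a, Or.inl ha, ha⟩ ⟨b, Or.inr hb, hb⟩
    exact Set.disjoint_left.1 hd hc1 hc2
  rel_refl A := RelAE.refl _
  rel_trans A B D h1 _ h2 h3 := RelAE.trans (V_mono h1) h2 h3
  rel_union A B hA hB h := by
    rw [V_union]
    exact RelAE.union (V_isOpen hA) (V_isOpen hB) (by rw [← V_inter]; exact h)
  rel_iUnion A B hB hd h := by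
    rw [V_iUnion]
    refine RelAE.iUnion (fun n => V_isOpen (hB n)) ?_ h
    intro i j
    obtain ⟨k, hk1, hk2⟩ := hd i j
    exact ⟨k, V_mono hk1, V_mono hk2⟩
  rel_good A B hA hAB h hB := by
    refine RelAE.ae ?_ (V_mono hAB) h hB
    obtain ⟨a, ha⟩ := hA
    obtain ⟨y, hy⟩ := hsurj (π a)
    exact ⟨⟨(y, a), hy⟩, ha⟩
  rel_disjoint A B hA hB hAn hd := by
    rw [V_union]
    refine RelAE.disjoint (V_isOpen hA) (V_isOpen hB) ?_ ?_
    · obtain ⟨a, ha⟩ := hAn
      obtain ⟨y, hy⟩ := hsurj (π a)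
      exact ⟨⟨(y, a), hy⟩, ha⟩
    · exact Set.disjoint_left.2 fun z hz hz' => Set.disjoint_left.1 hd hz hz'

end Vale.Agent.P203.Top
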