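import Vale.Agent.P203.Top.Stmt
import Vale.Agent.P203.Top.Cover
import Mathlib.Topology.Covering.Quotient

/-! P203. `Y → Y/W` is a covering map, provided every point of `Y` has a neighbourhood which is
disjoint from its translates; hence the vanishing of `π_n(Y)` passes to `Y/W`. -/

namespace Vale.Agent.P203.Top

open Set Topology

variable {S : Type} [Finite S] (M : CoxeterMatrix S)

theorem smul_fst (w : M.Group) (p : complementSet M) : (w • p).1.1 = rho M w p.1.1 := rfl

theorem smul_snd (w : M.Group) (p : complementSet M) : (w • p).1.2 = rho M w p.1.2 := rfl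

instance instContinuousConstSMul : ContinuousConstSMul M.Group (complementSet M) where
  continuous_const_smul w := by
    refine Continuous.subtype_mk (Continuous.prodMk ?_ ?_) _
    · exact (continuous_rho M w).comp (continuous_fst.comp continuous_subtype_val)
    · exact (continuous_rho M w).comp (continuous_snd.comp continuous_subtype_val)

/-- The quotient map `Y → Y/W` is a covering map. -/
theorem isCoveringMap_orbit
    (hPD : ∀ p : complementSet M, ∃ N ∈ 𝓝 p, ∀ w : M.Group, ((w • ·) '' N ∩ N).Nonempty → w = 1) :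
    IsCoveringMap (Quotient.mk (MulAction.orbitRel M.Group (complementSet M))) := by
  have h : IsQuotientCoveringMap (Quotient.mk (MulAction.orbitRel M.Group (complementSet M)))
      M.Group :=
    { toIsQuotientMap := isQuotientMap_quotient_mk'
      toContinuousConstSMul := inferInstance
      apply_eq_iff_mem_orbit := Quotient.eq''
      disjoint := hPD }
  exact h.isCoveringMap

/-- The vanishing of the higher homotopy groups of `Y` implies that of `Y/W`. -/
theorem subsingleton_orbitSpace
    (hPD : ∀ p : complementSet M, ∃ N ∈ 𝓝 p, ∀ w : M.Group, ((w • ·) '' N ∩ N).Nonempty → w = 1)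
    {n : ℕ} (hn : 2 ≤ n)
    (h : ∀ p : complementSet M, Subsingleton (HomotopyGroup (Fin n) (complementSet M) p))
    (x : OrbitSpace M) : Subsingleton (HomotopyGroup (Fin n) (OrbitSpace M) x) := by
  obtain ⟨p, rfl⟩ := Quotient.exists_rep x
  exact subsingleton_homotopyGroup_of_covering (isCoveringMap_orbit M hPD) hn p rfl (h p)

/-- If `p` has a neighbourhood `N` for which only finitely many `w` satisfy `w N ∩ N ≠ ∅`, and the
action is free, then `p` has a neighbourhood disjoint from all its translates. -/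
theorem exists_nhds_of_finite (p : complementSet M) (hfree : ∀ w : M.Group, w • p = p → w = 1)
    (hfin : ∃ N ∈ 𝓝 p, {w : M.Group | ((w • ·) '' N ∩ N).Nonempty}.Finite) :
    ∃ N ∈ 𝓝 p, ∀ w : M.Group, ((w • ·) '' N ∩ N).Nonempty → w = 1 := by
  classical
  obtain ⟨N, hN, hfin⟩ := hfin
  have h1 : ∀ w : M.Group, w ≠ 1 → ∃ V ∈ 𝓝 p, ((w • ·) '' V ∩ V) = ∅ := by
    intro w hw
    have hne : w • p ≠ p := fun h => hw (hfree w h)
    obtain ⟨U, V, hU, hV, hpU, hpV, hd⟩ := t2_separation hne
    refine ⟨V ∩ (w • ·) ⁻¹' U, Filter.inter_mem (hV.mem_nhds hpV)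
      ((continuous_const_smul w).continuousAt.preimage_mem_nhds (hU.mem_nhds hpU)), ?_⟩
    ext q
    simp only [mem_inter_iff, mem_image, mem_preimage, mem_empty_iff_false, iff_false]
    rintro ⟨⟨q', ⟨_, hq'⟩, rfl⟩, hq2, _⟩
    exact Set.disjoint_left.mp hd hq' hq2
  choose! V hV hVe using h1
  refine ⟨N ∩ ⋂ w ∈ hfin.toFinset.filter (· ≠ 1), V w, ?_, ?_⟩
  · refine Filter.inter_mem hN ((Filter.biInter_finset_mem _).mpr fun w hw => ?_)
    exact hV w (Finset.mem_filter.mp hw).2
  · intro w hw
    by_contra hw1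
    obtain ⟨_, ⟨q', ⟨hq'N, hq'⟩, rfl⟩, ⟨hqN, hq⟩⟩ := hw
    have hwf : w ∈ hfin.toFinset.filter (· ≠ 1) :=
      Finset.mem_filter.mpr ⟨hfin.mem_toFinset.mpr ⟨_, ⟨q', hq'N, rfl⟩, hqN⟩, hw1⟩
    have e := hVe w hw1
    have : (w • q') ∈ ((w • ·) '' V w ∩ V w) :=
      ⟨⟨q', Set.mem_iInter₂.mp hq' w hwf, rfl⟩, Set.mem_iInter₂.mp hq w hwf⟩
    rw [e] at this
    exact this

end Vale.Agent.P203.Top
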