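import Vale.Agent.P203.Tits.Bridge
import Vale.Agent.P203.Top.Cover

/-!
# P203: the cells of the Artin group cover the cells of the Coxeter group

`(g, T) ↦ (toW g, T)` is a covering of partially ordered sets `ACell M → WCell M`.  Therefore, if
the good class of the absolute extensors contains the whole poset `ACell M`, all higher homotopy
groups of `Y` vanish.
-/

namespace Vale.Agent.P203.Top

open Vale.Agent.P203.Sph Vale.Agent.P203.Tits Vale.Agent.P203.Gar

variable {S : Type} {M : CoxeterMatrix S}

/-- The projection of the cells of the Artin group to the cells of the Coxeter group. -/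
noncomputable def cellProj (c : ACell M) : WCell M := ⟨toW M c.g, c.T, c.sph⟩

theorem cellProj_g (c : ACell M) : (cellProj c).g = toW M c.g := rfl

theorem cellProj_T (c : ACell M) : (cellProj c).T = c.T := rfl

theorem cellProj_surjective : Function.Surjective (cellProj : ACell M → WCell M) := by
  intro c
  exact ⟨⟨tl c.g, c.T, c.sph⟩, WCell.ext (toW_tl _) rfl⟩

/-- `(g, T) ↦ (toW g, T)` is a covering of posets. -/
theorem posetCover_cellProj : PosetCover (cellProj : ACell M → WCell M) where
  mono := by
    intro c d hcd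
    obtain ⟨h1, w, hw, hg⟩ := hcd
    refine ⟨h1, ?_⟩
    rw [cellProj_g, cellProj_g, hg, map_mul, toW_tl, inv_mul_cancel_left]
    exact hw
  down := by
    intro a q hq
    obtain ⟨h1, h2⟩ := hq
    refine ⟨⟨a.g * tl ((toW M a.g)⁻¹ * q.g), q.T, q.sph⟩,
      ⟨⟨h1, _, h2, rfl⟩, WCell.ext ?_ rfl⟩, ?_⟩
    · change toW M (a.g * tl ((toW M a.g)⁻¹ * q.g)) = q.g
      rw [map_mul, toW_tl, mul_inv_cancel_left]
    · rintro b ⟨⟨h3, w, hw, hg⟩, rfl⟩
      refine ACell.ext ?_ rfl
      change b.g = a.g * tl ((toW M a.g)⁻¹ * toW M b.g)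
      rw [hg, map_mul, toW_tl, inv_mul_cancel_left]
  up := by
    intro a q hq
    obtain ⟨h1, h2⟩ := hq
    refine ⟨⟨a.g * (tl (q.g⁻¹ * toW M a.g))⁻¹, q.T, q.sph⟩,
      ⟨⟨h1, _, h2, ?_⟩, WCell.ext ?_ rfl⟩, ?_⟩
    · change a.g = a.g * (tl (q.g⁻¹ * toW M a.g))⁻¹ * tl (q.g⁻¹ * toW M a.g)
      rw [inv_mul_cancel_right]
    · change toW M (a.g * (tl (q.g⁻¹ * toW M a.g))⁻¹) = q.g
      rw [map_mul, map_inv, toW_tl, mul_inv_rev, inv_inv, mul_inv_cancel_left]
    · rintro b ⟨⟨h3, w, hw, hg⟩, rfl⟩
      refine ACell.ext ?_ rfl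
      change b.g = a.g * (tl ((toW M b.g)⁻¹ * toW M a.g))⁻¹
      rw [hg, map_mul, toW_tl, inv_mul_cancel_left, mul_inv_cancel_right]

section

variable (M) [Finite S]

/-- The class of lower sets of cells of the Artin group whose total space is an absolute
extensor. -/
def TGood (D : Set (ACell M)) : Prop := AE (V (strat : complementSet M → WCell M) cellProj D)

/-- The relative version. -/
def TRel (A B : Set (ACell M)) : Prop :=
  RelAE (V (strat : complementSet M → WCell M) cellProj A)
    (V (strat : complementSet M → WCell M) cellProj B)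

/-- The topological good theory on the cells of the Artin group. -/
theorem goodTheory_top : GoodTheory (TGood M) (TRel M) :=
  goodTheory_AE posetCover_cellProj isOpen_strat_le (fun _ => AE_strat_le _)
    (fun q => strat_surjective q)

/-- If the whole cell poset of the Artin group is good, all higher homotopy groups of the
complement `Y` vanish. -/
theorem subsingleton_homotopyGroup_complementSet (h : TGood M Set.univ) {n : ℕ} (hn : 2 ≤ n)
    (p : complementSet M) : Subsingleton (HomotopyGroup (Fin n) (complementSet M) p) :=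
  subsingleton_homotopyGroup_of_posetCover posetCover_cellProj isOpen_strat_le
    (fun y => cellProj_surjective (strat y)) (by rw [← V_univ]; exact h) hn p

end

end Vale.Agent.P203.Top
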