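import Mathlib.Topology.Compactness.Paracompact
import Mathlib.Topology.GDelta.MetrizableSpace
import Mathlib.Topology.Homotopy.HomotopyGroup
import Mathlib.Topology.TietzeExtension
import Mathlib.Analysis.Convex.Star
import Mathlib.Tactic

/-!
# Absolute extensors for compact Hausdorff spaces, and gluing of open sets

`AE A` : every continuous map from a closed subset `C` of a compact Hausdorff space `T`
into `A` extends to a continuous map from `T` into `A`.
-/

namespace Vale.Agent.P203.Top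

open Set Topology

universe v

variable {X : Type v} [TopologicalSpace X]

/-- Absolute extensor property of a subset `A` of `X` (for compact Hausdorff spaces). -/
def AE (A : Set X) : Prop :=
  A.Nonempty ∧
  ∀ (T : Type) [TopologicalSpace T] [CompactSpace T] [T2Space T] (C : Set T), IsClosed C →
    ∀ f : T → X, ContinuousOn f C → MapsTo f C A →
      ∃ F : T → X, Continuous F ∧ (∀ t, F t ∈ A) ∧ EqOn F f C

/-- Gluing lemma: if `A`, `B` are open and `A`, `B`, `A ∩ B` are absolute extensors, so is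
`A ∪ B`. -/
theorem AE.union {A B : Set X} (hA : IsOpen A) (hB : IsOpen B) (eA : AE A) (eB : AE B)
    (eAB : AE (A ∩ B)) : AE (A ∪ B) := by
  classical
  refine ⟨eA.1.mono subset_union_left, ?_⟩
  intro T _ _ _ C hC f hf hfm
  set P : Set T := C ∩ f ⁻¹' Bᶜ with hP
  set Q : Set T := C ∩ f ⁻¹' Aᶜ with hQ
  have hPc : IsClosed P := hf.preimage_isClosed_of_isClosed hC hB.isClosed_compl
  have hQc : IsClosed Q := hf.preimage_isClosed_of_isClosed hC hA.isClosed_compl
  have hdis : Disjoint P Q := by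
    rw [Set.disjoint_left]
    rintro x ⟨hx, hx1⟩ ⟨_, hx2⟩
    rcases hfm hx with h | h
    · exact hx2 h
    · exact hx1 h
  obtain ⟨l, l0, l1, -⟩ := exists_continuous_zero_one_of_isClosed hPc hQc hdis
  set TA : Set T := {x | l x ≤ 1 / 2} with hTA
  set TB : Set T := {x | 1 / 2 ≤ l x} with hTB
  set T0 : Set T := {x | l x = 1 / 2} with hT0
  have hTAc : IsClosed TA := isClosed_le l.continuous continuous_const
  have hTBc : IsClosed TB := isClosed_le continuous_const l.continuous
  have hT0c : IsClosed T0 := isClosed_eq l.continuous continuous_const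
  have hfA : ∀ x ∈ C, x ∈ TA → f x ∈ A := by
    intro x hx hxA
    by_contra h
    have : l x = 1 := l1 ⟨hx, h⟩
    have h2 : l x ≤ 1 / 2 := hxA
    linarith
  have hfB : ∀ x ∈ C, x ∈ TB → f x ∈ B := by
    intro x hx hxB
    by_contra h
    have : l x = 0 := l0 ⟨hx, h⟩
    have h2 : 1 / 2 ≤ l x := hxB
    linarith
  have hT0A : ∀ x, x ∈ T0 → x ∈ TA := fun x hx => le_of_eq hx
  have hT0B : ∀ x, x ∈ T0 → x ∈ TB := fun x hx => ge_of_eq hx
  obtain ⟨F0, hF0, hF0m, hF0e⟩ := eAB.2 T (C ∩ T0) (hC.inter hT0c) f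
    (hf.mono inter_subset_left)
    (fun x hx => ⟨hfA x hx.1 (hT0A x hx.2), hfB x hx.1 (hT0B x hx.2)⟩)
  have key : ∀ (D : Set X) (TD : Set T), IsClosed TD → AE D →
      (∀ x ∈ C, x ∈ TD → f x ∈ D) → (∀ x, F0 x ∈ D) →
      ∃ F1 : T → X, Continuous F1 ∧ (∀ t, F1 t ∈ D) ∧
        (∀ x ∈ C, x ∈ TD → F1 x = f x) ∧ (∀ x ∈ T0, F1 x = F0 x) := by
    intro D TD hTD eD hfD hF0D
    let f1 : T → X := fun x => if x ∈ T0 then F0 x else f x
    have h1 : ∀ x ∈ T0, f1 x = F0 x := fun x hx => by simp [f1, hx]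
    have h2 : ∀ x ∈ C, f1 x = f x := by
      intro x hx
      by_cases h : x ∈ T0
      · rw [h1 x h]; exact hF0e ⟨hx, h⟩
      · simp [f1, h]
    have hc : ContinuousOn f1 ((C ∩ TD) ∪ T0) := by
      refine ContinuousOn.union_of_isClosed ?_ ?_ (hC.inter hTD) hT0c
      · exact (hf.mono inter_subset_left).congr (fun x hx => h2 x hx.1)
      · exact hF0.continuousOn.congr (fun x hx => h1 x hx)
    obtain ⟨F1, hF1, hF1m, hF1e⟩ := eD.2 T ((C ∩ TD) ∪ T0) ((hC.inter hTD).union hT0c) f1 hc (by
      rintro x (hx | hx)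
      · rw [h2 x hx.1]; exact hfD x hx.1 hx.2
      · rw [h1 x hx]; exact hF0D x)
    refine ⟨F1, hF1, hF1m, fun x hx hx2 => ?_, fun x hx => ?_⟩
    · rw [hF1e (Or.inl ⟨hx, hx2⟩), h2 x hx]
    · rw [hF1e (Or.inr hx), h1 x hx]
  obtain ⟨FA, hFA, hFAm, hFAe, hFA0⟩ := key A TA hTAc eA hfA (fun x => (hF0m x).1)
  obtain ⟨FB, hFB, hFBm, hFBe, hFB0⟩ := key B TB hTBc eB hfB (fun x => (hF0m x).2)
  refine ⟨fun x => if l x ≤ 1 / 2 then FA x else FB x, ?_, ?_, ?_⟩
  · refine Continuous.if_le hFA hFB l.continuous continuous_const ?_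
    intro x hx
    rw [hFA0 x hx, hFB0 x hx]
  · intro t
    by_cases h : l t ≤ 1 / 2
    · simp only [h, if_true]; exact Or.inl (hFAm t)
    · simp only [h, if_false]; exact Or.inr (hFBm t)
  · intro x hx
    by_cases h : l x ≤ 1 / 2
    · simp only [h, if_true]; exact hFAe x hx h
    · simp only [h, if_false]; exact hFBe x hx (le_of_lt (not_le.1 h))

/-- Directed unions of open absolute extensors are absolute extensors. -/
theorem AE.iUnion {ι : Type*} [Nonempty ι] {A : ι → Set X} (ho : ∀ i, IsOpen (A i))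
    (hd : Directed (· ⊆ ·) A) (hA : ∀ i, AE (A i)) : AE (⋃ i, A i) := by
  refine ⟨(hA (Classical.arbitrary ι)).1.mono (subset_iUnion _ _), ?_⟩
  intro T _ _ _ C hC f hf hfm
  have hcomp : IsCompact (f '' C) := hC.isCompact.image_of_continuousOn hf
  obtain ⟨i, hi⟩ := hcomp.elim_directed_cover A ho (by
    rintro _ ⟨x, hx, rfl⟩; exact hfm hx) hd
  obtain ⟨F, hF, hFm, hFe⟩ := (hA i).2 T C hC f hf (fun x hx => hi ⟨x, hx, rfl⟩)
  exact ⟨F, hF, fun t => mem_iUnion.2 ⟨i, hFm t⟩, hFe⟩

/-- Open star-shaped sets in a space satisfying the Tietze extension theorem. -/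
theorem AE.of_starConvex {E : Type v} [AddCommGroup E] [Module ℝ E] [TopologicalSpace E]
    [IsTopologicalAddGroup E] [ContinuousSMul ℝ E] [TietzeExtension.{0, v} E]
    {U : Set E} (hU : IsOpen U) {p : E} (hp : p ∈ U) (hs : StarConvex ℝ p U) : AE U := by
  refine ⟨⟨p, hp⟩, ?_⟩
  intro T _ _ _ C hC f hf hfm
  obtain ⟨g, hg⟩ := ContinuousMap.exists_restrict_eq hC
    (⟨C.domRestrict f, continuousOn_iff_continuous_domRestrict.1 hf⟩ : C(C, E))
  have hg' : ∀ x ∈ C, g x = f x := fun x hx =>
    congrArg (fun h : C(C, E) => h ⟨x, hx⟩) hg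
  have hVo : IsOpen (g ⁻¹' U) := hU.preimage g.continuous
  have hdis : Disjoint (g ⁻¹' U)ᶜ C := by
    rw [Set.disjoint_left]
    intro x hx hxC
    apply hx
    change g x ∈ U
    rw [hg' x hxC]; exact hfm hxC
  obtain ⟨l, l0, l1, l01⟩ := exists_continuous_zero_one_of_isClosed hVo.isClosed_compl hC hdis
  refine ⟨fun x => p + l x • (g x - p), ?_, ?_, ?_⟩
  · exact continuous_const.add (l.continuous.smul (g.continuous.sub continuous_const))
  · intro x
    by_cases hx : g x ∈ U
    · have := hs.add_smul_sub_mem hx (l01 x).1 (l01 x).2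
      exact this
    · have : l x = 0 := l0 hx
      simp only [this, zero_smul, add_zero]
      exact hp
  · intro x hx
    have h1 : l x = 1 := l1 hx
    simp only [h1, one_smul, add_sub_cancel]
    exact hg' x hx

/-- Relative version: every map of a compact Hausdorff space into `B`, which maps a closed set `C`
into `A`, can be replaced by a map into `A` without changing it on `C`. -/
def RelAE (A B : Set X) : Prop :=
  ∀ (T : Type) [TopologicalSpace T] [CompactSpace T] [T2Space T] (C : Set T), IsClosed C →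
    ∀ f : T → X, Continuous f → (∀ t, f t ∈ B) → MapsTo f C A →
      ∃ F : T → X, Continuous F ∧ (∀ t, F t ∈ A) ∧ EqOn F f C

theorem RelAE.refl (A : Set X) : RelAE A A :=
  fun _ _ _ _ _ _ f hf hfm _ => ⟨f, hf, hfm, fun _ _ => rfl⟩

theorem RelAE.trans {A B D : Set X} (hAB : A ⊆ B) (h1 : RelAE A B) (h2 : RelAE B D) :
    RelAE A D := by
  intro T _ _ _ C hC f hf hfm hfC
  obtain ⟨F, hF, hFm, hFe⟩ := h2 T C hC f hf hfm (hfC.mono_right hAB)
  obtain ⟨G, hG, hGm, hGe⟩ := h1 T C hC F hF hFm (fun x hx => by rw [hFe hx]; exact hfC hx)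
  exact ⟨G, hG, hGm, hGe.trans hFe⟩

/-- Adding `B` along an absolute extensor `A ∩ B`. -/
theorem RelAE.union {A B : Set X} (hA : IsOpen A) (hB : IsOpen B) (eAB : AE (A ∩ B)) :
    RelAE A (A ∪ B) := by
  intro T _ _ _ C hC f hf hfm hfC
  have hPc : IsClosed (f ⁻¹' Bᶜ ∪ C) := (hB.isClosed_compl.preimage hf).union hC
  have hRc : IsClosed (f ⁻¹' Aᶜ) := hA.isClosed_compl.preimage hf
  have hdis : Disjoint (f ⁻¹' Bᶜ ∪ C) (f ⁻¹' Aᶜ) := by
    rw [Set.disjoint_left]
    rintro x (hx | hx) hx2
    · rcases hfm x with h | h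
      · exact hx2 h
      · exact hx h
    · exact hx2 (hfC hx)
  obtain ⟨l, l0, l1, -⟩ := exists_continuous_zero_one_of_isClosed hPc hRc hdis
  have hT0c : IsClosed {x | l x = 1 / 2} := isClosed_eq l.continuous continuous_const
  have hfA : ∀ x, l x ≤ 1 / 2 → f x ∈ A := by
    intro x hx
    by_contra h
    have : l x = 1 := l1 h
    linarith
  have hfB : ∀ x, 1 / 2 ≤ l x → f x ∈ B := by
    intro x hx
    by_contra h
    have : l x = 0 := l0 (Or.inl h)
    linarith
  obtain ⟨F1, hF1, hF1m, hF1e⟩ := eAB.2 T {x | l x = 1 / 2} hT0c f hf.continuousOn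
    (fun x hx => ⟨hfA x (le_of_eq hx), hfB x (ge_of_eq hx)⟩)
  refine ⟨fun x => if l x ≤ 1 / 2 then f x else F1 x, ?_, ?_, ?_⟩
  · exact Continuous.if_le hf hF1 l.continuous continuous_const (fun x hx => (hF1e hx).symm)
  · intro t
    by_cases h : l t ≤ 1 / 2
    · simp only [h, if_true]; exact hfA t h
    · simp only [h, if_false]; exact (hF1m t).1
  · intro x hx
    have : l x = 0 := l0 (Or.inr hx)
    have h : l x ≤ 1 / 2 := by rw [this]; norm_num
    simp only [h, if_true]

/-- Directed unions in the second variable. -/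
theorem RelAE.iUnion {ι : Type*} [Nonempty ι] {A : Set X} {B : ι → Set X}
    (ho : ∀ i, IsOpen (B i)) (hd : Directed (· ⊆ ·) B) (h : ∀ i, RelAE A (B i)) :
    RelAE A (⋃ i, B i) := by
  intro T _ _ _ C hC f hf hfm hfC
  obtain ⟨i, hi⟩ := (isCompact_range hf).elim_directed_cover B ho (by
    rintro _ ⟨x, rfl⟩; exact hfm x) hd
  exact h i T C hC f hf (fun t => hi ⟨t, rfl⟩) hfC

/-- Forgetting a piece which is disjoint from a nonempty `A`. -/
theorem RelAE.disjoint {A B : Set X} (hA : IsOpen A) (hB : IsOpen B) (hne : A.Nonempty)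
    (hd : Disjoint A B) : RelAE A (A ∪ B) := by
  classical
  obtain ⟨a, ha⟩ := hne
  intro T _ _ _ C _ f hf hfm hfC
  have hcl : IsClopen (f ⁻¹' A) := by
    refine ⟨?_, hA.preimage hf⟩
    have : f ⁻¹' A = (f ⁻¹' B)ᶜ := by
      ext t
      constructor
      · intro h h'
        exact Set.disjoint_left.1 hd h h'
      · intro h
        exact (hfm t).resolve_right h
    rw [this]
    exact (hB.preimage hf).isClosed_compl
  refine ⟨(f ⁻¹' A).piecewise f fun _ => a, ?_, ?_, ?_⟩
  · exact hf.piecewise (fun t ht => by rw [hcl.frontier_eq] at ht; exact ht.elim)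
      continuous_const
  · intro t
    by_cases h : t ∈ f ⁻¹' A
    · rw [Set.piecewise_eq_of_mem _ _ _ h]; exact h
    · rw [Set.piecewise_eq_of_notMem _ _ _ h]; exact ha
  · intro t ht
    exact Set.piecewise_eq_of_mem _ _ _ (hfC ht)

/-- Backwards step: a nonempty `A` with `RelAE A B`, `B` an absolute extensor. -/
theorem RelAE.ae {A B : Set X} (hA : A.Nonempty) (hAB : A ⊆ B) (h : RelAE A B) (hB : AE B) :
    AE A := by
  refine ⟨hA, ?_⟩
  intro T _ _ _ C hC f hf hfm
  obtain ⟨F, hF, hFm, hFe⟩ := hB.2 T C hC f hf (hfm.mono_right hAB)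
  obtain ⟨G, hG, hGm, hGe⟩ := h T C hC F hF hFm (fun x hx => by rw [hFe hx]; exact hfm hx)
  exact ⟨G, hG, hGm, hGe.trans hFe⟩

/-- Retracts (in particular homeomorphic copies) of absolute extensors. -/
theorem AE.of_retract {Z : Type*} [TopologicalSpace Z] {U : Set X} {V : Set Z} (hU : AE U)
    (s : X → Z) (r : Z → X) (hs : ContinuousOn s U) (hr : ContinuousOn r V)
    (hsm : MapsTo s U V) (hrm : MapsTo r V U) (hsr : ∀ z ∈ V, s (r z) = z) : AE V := by
  refine ⟨hU.1.elim fun x hx => ⟨s x, hsm hx⟩, ?_⟩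
  intro T _ _ _ C hC f hf hfm
  obtain ⟨F, hF, hFm, hFe⟩ := hU.2 T C hC (r ∘ f) (hr.comp hf hfm) (hrm.comp hfm)
  refine ⟨s ∘ F, ?_, fun t => hsm (hFm t), fun x hx => ?_⟩
  · exact continuousOn_univ.1 (hs.comp hF.continuousOn (fun t _ => hFm t))
  · change s (F x) = f x
    rw [hFe hx]; exact hsr _ (hfm hx)

/-- Absolute extensors are path connected. -/
theorem AE.isPathConnected {A : Set X} (hA : AE A) : IsPathConnected A := by
  classical
  obtain ⟨x0, hx0⟩ := hA.1
  refine ⟨x0, hx0, fun {y} hy => ?_⟩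
  have hc : ContinuousOn (fun t : unitInterval => if t = 0 then x0 else y)
      ({0, 1} : Set unitInterval) :=
    (Set.toFinite ({0, 1} : Set unitInterval)).continuousOn _
  obtain ⟨F, hF, hFm, hFe⟩ := hA.2 unitInterval {0, 1} (Set.toFinite _).isClosed _ hc (by
    intro t _
    by_cases h : t = 0
    · simp only [h, if_true]; exact hx0
    · simp only [h, if_false]; exact hy)
  have h0 : F 0 = x0 := by
    rw [hFe (by simp : (0 : unitInterval) ∈ ({0, 1} : Set unitInterval))]; simp
  have h1 : F 1 = y := by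
    rw [hFe (by simp : (1 : unitInterval) ∈ ({0, 1} : Set unitInterval))]; simp
  exact ⟨⟨⟨F, hF⟩, h0, h1⟩, fun t => hFm t⟩

/-- If the whole space is an absolute extensor then any two generalized loops are homotopic
relative to the boundary. -/
theorem AE.subsingleton_homotopyGroup (hX : AE (univ : Set X)) (n : ℕ) (x : X) :
    Subsingleton (HomotopyGroup (Fin n) X x) := by
  classical
  refine ⟨fun a b => ?_⟩
  induction a using Quotient.inductionOn with
  | _ f =>
  induction b using Quotient.inductionOn with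
  | _ g =>
  apply Quotient.sound
  change GenLoop.Homotopic f g
  let C : Set (unitInterval × (Fin n → unitInterval)) :=
    {p | p.1 = 0} ∪ ({p | p.1 = 1} ∪ {p | p.2 ∈ Cube.boundary (Fin n)})
  have hb : IsClosed (Cube.boundary (Fin n)) := by
    have : Cube.boundary (Fin n) = ⋃ i : Fin n, ({y | y i = 0} ∪ {y | y i = 1}) := by
      ext y; simp [Cube.boundary]
    rw [this]
    refine isClosed_iUnion_of_finite fun i => ?_
    exact (isClosed_eq (continuous_apply i) continuous_const).union
      (isClosed_eq (continuous_apply i) continuous_const)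
  have h0 : IsClosed {p : unitInterval × (Fin n → unitInterval) | p.1 = 0} :=
    isClosed_eq continuous_fst continuous_const
  have h1 : IsClosed {p : unitInterval × (Fin n → unitInterval) | p.1 = 1} :=
    isClosed_eq continuous_fst continuous_const
  have h2 : IsClosed {p : unitInterval × (Fin n → unitInterval) | p.2 ∈ Cube.boundary (Fin n)} :=
    hb.preimage continuous_snd
  let u : unitInterval × (Fin n → unitInterval) → X := fun p =>
    if p.1 = 0 then f p.2 else g p.2
  have hu0 : ∀ p, p.1 = 0 → u p = f p.2 := fun p hp => by simp [u, hp]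
  have hu1 : ∀ p, p.1 = 1 → u p = g p.2 := fun p hp => by simp [u, hp]
  have hu2 : ∀ p, p.2 ∈ Cube.boundary (Fin n) → u p = x := by
    intro p hp
    by_cases h : p.1 = 0
    · rw [hu0 p h]; exact f.2 _ hp
    · simp only [u, h, if_false]; exact g.2 _ hp
  have hC : ContinuousOn u C := by
    refine ContinuousOn.union_of_isClosed ?_ (ContinuousOn.union_of_isClosed ?_ ?_ h1 h2) h0
      (h1.union h2)
    · exact ((ContinuousMap.continuous f.1).comp continuous_snd).continuousOn.congr
        (fun p hp => hu0 p hp)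
    · exact ((ContinuousMap.continuous g.1).comp continuous_snd).continuousOn.congr
        (fun p hp => hu1 p hp)
    · exact continuousOn_const.congr (fun p hp => hu2 p hp)
  obtain ⟨F, hF, -, hFe⟩ := hX.2 (unitInterval × (Fin n → unitInterval)) C
    (h0.union (h1.union h2)) u hC (fun _ _ => mem_univ _)
  refine ⟨{ toFun := F, continuous_toFun := hF, map_zero_left := ?_, map_one_left := ?_,
            prop' := ?_ }⟩
  · intro y
    rw [hFe (Or.inl rfl), hu0 _ rfl]; rfl
  · intro y
    rw [hFe (Or.inr (Or.inl rfl)), hu1 _ rfl]; rfl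
  · intro t y hy
    change F (t, y) = f y
    rw [hFe (Or.inr (Or.inr hy)), hu2 _ hy]
    exact (f.2 y hy).symm

end Vale.Agent.P203.Top
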