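import Vale.Agent.P203.Tits.Basic
import Mathlib.Topology.Homotopy.HomotopyGroup
import Mathlib.Topology.Algebra.Module.FiniteDimension

/-! P203. The space `Y` (complement of the complexified reflecting hyperplanes over the interior
of the Tits cone) and its orbit space `Y/W`. -/

namespace Vale.Agent.P203

variable {S : Type}

/-- `2 cos (π / m_st)`, and `2` if `m_st = ∞` (in Mathlib the entry `0` stands for infinity);
for `s = t` this is `2 cos π = -2`. -/
noncomputable def cosCoeff (M : CoxeterMatrix S) (s t : S) : ℝ :=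
  if M s t = 0 then 2 else 2 * Real.cos (Real.pi / M s t)

/-- The simple reflection `s` acting on `V^* = ℝ^S`, where a functional `x` on `V = ℝ^S` is given
by its values `x t` on the simple roots `α_t`: as `s(α_t) = α_t + 2 cos (π / m_st) α_s`, we have
`(s x)(t) = x(t) + 2 cos (π / m_st) x(s)`; in particular `(s x)(s) = - x(s)`. -/
noncomputable def simpleRefl (M : CoxeterMatrix S) (s : S) : Module.End ℝ (S → ℝ) where
  toFun x t := x t + cosCoeff M s t * x s
  map_add' x y := by ext t; simp only [Pi.add_apply]; ring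
  map_smul' c x := by ext t; simp only [Pi.smul_apply, smul_eq_mul, RingHom.id_apply]; ring

theorem simpleRefl_eq (M : CoxeterMatrix S) (s : S) :
    simpleRefl M s = Tits.dact M.toCoxeterSystem (M.toCoxeterSystem.simple s) := by
  ext1 x
  funext t
  rw [Tits.dact_simple]
  show x t + cosCoeff M s t * x s = _
  unfold cosCoeff Cox.gram
  split_ifs <;> ring

/-- The reflections `simpleRefl M s` satisfy the defining relations `(s t)^{m_st} = 1` of `W`. -/
theorem simpleRefl_isLiftable (M : CoxeterMatrix S) : M.IsLiftable (simpleRefl M) := by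
  intro i j
  have h : ∀ w w' : M.Group, Tits.dact M.toCoxeterSystem (w * w') =
      Tits.dact M.toCoxeterSystem w * Tits.dact M.toCoxeterSystem w' := fun w w' => by
    ext1 x; exact Tits.dact_mul_apply w w' x
  have h2 : ∀ (w : M.Group) (n : ℕ), Tits.dact M.toCoxeterSystem (w ^ n) =
      Tits.dact M.toCoxeterSystem w ^ n := fun w n => by
    induction n with
    | zero => rw [pow_zero, pow_zero, Tits.dact_one]; rfl
    | succ n ih => rw [pow_succ, pow_succ, h, ih]
  rw [simpleRefl_eq, simpleRefl_eq, ← h, ← h2, CoxeterSystem.simple_mul_simple_pow,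
    Tits.dact_one]
  rfl

/-- The action of the Coxeter group `W` on `V^*`, dual to its canonical (Tits) reflection
representation: the homomorphism which sends each simple generator `s` to `simpleRefl M s`. -/
noncomputable def rho (M : CoxeterMatrix S) : M.Group →* Module.End ℝ (S → ℝ) :=
  M.toCoxeterSystem.lift ⟨simpleRefl M, simpleRefl_isLiftable M⟩

/-- The closed fundamental chamber. -/
def chamber (S : Type) : Set (S → ℝ) := {x | ∀ s, 0 ≤ x s}

/-- The Tits cone, the union of the images of the closed fundamental chamber under `W`. -/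
def titsCone (M : CoxeterMatrix S) : Set (S → ℝ) := ⋃ w : M.Group, rho M w '' chamber S

/-- The set of reflecting hyperplanes: the images of the walls `{x | x s = 0}` of the fundamental
chamber under `W`. -/
def hyperplanes (M : CoxeterMatrix S) : Set (Set (S → ℝ)) :=
  {H | ∃ (w : M.Group) (s : S), H = rho M w '' {x | x s = 0}}

/-- The space `Y`: the points `x + i y` of `V^* ⊗ ℂ`, given by their real and imaginary parts,
with `x` in the interior of the Tits cone, which do not lie on any complexified reflecting
hyperplane, that is no reflecting hyperplane contains both `x` and `y`. -/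
def complementSet (M : CoxeterMatrix S) : Set ((S → ℝ) × (S → ℝ)) :=
  {p | p.1 ∈ interior (titsCone M) ∧ ∀ H ∈ hyperplanes M, ¬ (p.1 ∈ H ∧ p.2 ∈ H)}

theorem rho_eq (M : CoxeterMatrix S) (w : M.Group) :
    rho M w = Tits.dact M.toCoxeterSystem w := by
  induction w using M.toCoxeterSystem.simple_induction_left with
  | one => rw [map_one, Tits.dact_one]; rfl
  | mul_simple_left w i ih =>
    rw [map_mul, ih]
    have h1 : rho M (M.toCoxeterSystem.simple i) = simpleRefl M i :=
      M.toCoxeterSystem.lift_apply_simple (simpleRefl_isLiftable M) i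
    rw [h1, simpleRefl_eq]
    ext1 x
    rw [Tits.dact_mul_apply]
    rfl

theorem rho_mul_apply (M : CoxeterMatrix S) (w w' : M.Group) (x : S → ℝ) :
    rho M (w * w') x = rho M w (rho M w' x) := by
  rw [map_mul]; rfl

theorem rho_inv_rho (M : CoxeterMatrix S) (w : M.Group) (x : S → ℝ) :
    rho M w⁻¹ (rho M w x) = x := by
  rw [← rho_mul_apply, inv_mul_cancel, map_one]; rfl

theorem rho_rho_inv (M : CoxeterMatrix S) (w : M.Group) (x : S → ℝ) :
    rho M w (rho M w⁻¹ x) = x := by
  rw [← rho_mul_apply, mul_inv_cancel, map_one]; rfl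

theorem continuous_rho [Finite S] (M : CoxeterMatrix S) (w : M.Group) :
    Continuous (rho M w) := by
  have := Fintype.ofFinite S
  exact (rho M w).continuous_of_finiteDimensional

theorem rho_image_titsCone (M : CoxeterMatrix S) (w : M.Group) :
    rho M w '' titsCone M = titsCone M := by
  have key : ∀ w : M.Group, rho M w '' titsCone M ⊆ titsCone M := by
    intro w
    rintro _ ⟨x, hx, rfl⟩
    obtain ⟨w', y, hy, rfl⟩ := Set.mem_iUnion.mp hx
    exact Set.mem_iUnion.mpr ⟨w * w', y, hy, rho_mul_apply M w w' y⟩
  refine Set.Subset.antisymm (key w) fun x hx => ?_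
  exact ⟨rho M w⁻¹ x, key w⁻¹ ⟨x, hx, rfl⟩, rho_rho_inv M w x⟩

/-- `W` acts on `V^*` by homeomorphisms -/
noncomputable def rhoHomeo [Finite S] (M : CoxeterMatrix S) (w : M.Group) :
    (S → ℝ) ≃ₜ (S → ℝ) where
  toFun := rho M w
  invFun := rho M w⁻¹
  left_inv := rho_inv_rho M w
  right_inv := rho_rho_inv M w
  continuous_toFun := continuous_rho M w
  continuous_invFun := continuous_rho M w⁻¹

theorem rho_mem_interior [Finite S] (M : CoxeterMatrix S) (w : M.Group) {x : S → ℝ}
    (hx : x ∈ interior (titsCone M)) : rho M w x ∈ interior (titsCone M) := by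
  have h := (rhoHomeo M w).image_interior (titsCone M)
  have h2 : (rhoHomeo M w) '' titsCone M = titsCone M := rho_image_titsCone M w
  rw [h2] at h
  rw [← h]
  exact ⟨x, hx, rfl⟩

theorem rho_mem_complementSet [Finite S] (M : CoxeterMatrix S) (w : M.Group)
    {p : (S → ℝ) × (S → ℝ)} (hp : p ∈ complementSet M) :
    (rho M w p.1, rho M w p.2) ∈ complementSet M := by
  refine ⟨rho_mem_interior M w hp.1, ?_⟩
  rintro H ⟨v, s, rfl⟩ ⟨⟨x, hx, hx'⟩, ⟨y, hy, hy'⟩⟩
  refine hp.2 _ ⟨w⁻¹ * v, s, rfl⟩ ⟨⟨x, hx, ?_⟩, ⟨y, hy, ?_⟩⟩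
  · rw [rho_mul_apply, hx']; exact rho_inv_rho M w p.1
  · rw [rho_mul_apply, hy']; exact rho_inv_rho M w p.2

/-- `W` acts on `Y` by `w (x + i y) = w x + i w y`. -/
noncomputable instance complementAction [Finite S] (M : CoxeterMatrix S) :
    MulAction M.Group (complementSet M) where
  smul w p := ⟨(rho M w p.1.1, rho M w p.1.2), rho_mem_complementSet M w p.2⟩
  one_smul p := by
    apply Subtype.ext
    show (rho M 1 p.1.1, rho M 1 p.1.2) = p.1
    rw [map_one]; rfl
  mul_smul w w' p := by
    apply Subtype.ext
    show (rho M (w * w') p.1.1, rho M (w * w') p.1.2) =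
      (rho M w (rho M w' p.1.1), rho M w (rho M w' p.1.2))
    rw [rho_mul_apply, rho_mul_apply]

/-- The orbit space `Y/W` with the quotient topology. -/
abbrev OrbitSpace [Finite S] (M : CoxeterMatrix S) : Type :=
  Quotient (MulAction.orbitRel M.Group (complementSet M))

end Vale.Agent.P203
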