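import Vale.Agent.P203.Top.Quot
import Vale.Agent.P203.Tits.Bridge

/-! P203. Final assembly of the topological part: if every good theory on the poset of cells of the
universal cover contains the whole poset, then all higher homotopy groups of `Y` and `Y/W`
vanish. -/

namespace Vale.Agent.P203.Top

open Set Topology Vale.Agent.P203.Sph Vale.Agent.P203.Tits

variable {S : Type} [Finite S] {M : CoxeterMatrix S}

theorem goodTheory_cells {π : ACell M → WCell M} (hπ : PosetCover π) :
    GoodTheory (fun D : Set (ACell M) => AE (V (strat (M := M)) π D))
      (fun A B : Set (ACell M) => RelAE (V (strat (M := M)) π A) (V (strat (M := M)) π B)) :=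
  goodTheory_AE hπ isOpen_strat_le (fun a => AE_strat_le (π a)) strat_surjective

theorem subsingleton_complement {π : ACell M → WCell M} (hπ : PosetCover π)
    (hs : Function.Surjective π)
    (h : ∀ (Good : Set (ACell M) → Prop) (Rel : Set (ACell M) → Set (ACell M) → Prop),
      GoodTheory Good Rel → Good univ)
    {n : ℕ} (hn : 2 ≤ n) (p : complementSet M) :
    Subsingleton (HomotopyGroup (Fin n) (complementSet M) p) :=
  subsingleton_homotopyGroup_of_posetCover hπ isOpen_strat_le (fun y => hs (strat y))
    (h _ _ (goodTheory_cells hπ)) hn p

theorem subsingleton_orbit {π : ACell M → WCell M} (hπ : PosetCover π)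
    (hs : Function.Surjective π)
    (h : ∀ (Good : Set (ACell M) → Prop) (Rel : Set (ACell M) → Set (ACell M) → Prop),
      GoodTheory Good Rel → Good univ)
    {n : ℕ} (hn : 2 ≤ n) (x : OrbitSpace M) :
    Subsingleton (HomotopyGroup (Fin n) (OrbitSpace M) x) :=
  subsingleton_orbitSpace M exists_nhds_disjoint hn (subsingleton_complement hπ hs h hn) x

end Vale.Agent.P203.Top
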